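import Vale.Agent.P146.H706G.Mart
import Vale.Agent.P146.H364.Pb
import Vale.Agent.P146.H941.F01

/-!
P146, plan R2, row F2: the law at the first time. A function of the positions at `t0`, `t1`, `s1`
has the same mean in the law with the times `s1 < s2` and in the law whose last time is `s1`;
averages over a row of functions of a linear position are functions of this position. Hence the
nonlinear number of the row (F1) at the last time of the second law is the one at the first time of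
the first law.
-/

open MeasureTheory ProbabilityTheory Finset

namespace Vale.Agent.P146.H420

open Vale.Agent.P157.Lv Vale.Agent.P146.H425 Vale.Agent.P146.H325 Vale.Agent.P146.H332
  Vale.Agent.P146.H712 Vale.Agent.P146.R1 Vale.Agent.P146.R1C Vale.Agent.P146.H706
  Vale.Agent.P146.R1S Vale.Agent.P146.H191 Vale.Agent.P146.H941

set_option linter.unusedSectionVars false

section gen

variable {κ : Type} [Fintype κ] [DecidableEq κ] {F : (κ → ℝ) → ℝ} {D : κ → (κ → ℝ) → ℝ}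
  {B L : ℝ} {q : Par} {G : GD κ}

/-- The parameters of the law whose last time is the first time `s1` of `q`; `s'` is any time
between. -/
def fst (q : Par) (s' : ℝ) : Par := { q with s1 := s', s2 := q.s1 }

@[simp] lemma fst_x (s' : ℝ) : (fst q s').x = q.x := rfl
@[simp] lemma fst_t0 (s' : ℝ) : (fst q s').t0 = q.t0 := rfl
@[simp] lemma fst_t1 (s' : ℝ) : (fst q s').t1 = q.t1 := rfl
@[simp] lemma fst_s1 (s' : ℝ) : (fst q s').s1 = s' := rfl
@[simp] lemma fst_s2 (s' : ℝ) : (fst q s').s2 = q.s1 := rfl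

/-- **The law at the first time.** -/
theorem EwG_fst (h : C11 F D B L) (hx : 0 < q.x) (hG : G.Ok)
    {Ψ : (κ → ℝ) → (κ → ℝ) → (κ → ℝ) → ℝ} (hΨ : E3 Ψ) {s' : ℝ} (h0 : q.t1 ≤ s')
    (h1 : s' ≤ q.s1) (h2 : q.s1 ≤ q.s2) (h3 : q.s2 ≤ 1) :
    EwG q G F (fun w => Ψ (P0 q w) (P1 q w) (P2 q w)) =
      EwG (fst q s') G F (fun w => Ψ (P0 (fst q s') w) (P1 (fst q s') w) (P3 (fst q s') w)) := by
  rw [EwG_123 h hx hG hΨ h2 h3, EwG_124 (q := fst q s') h hx hG hΨ h0 h1]
  rfl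

/-! ### averages over a row of functions of a linear position -/

lemma lp_elim (a : Fin 4 → ℝ) (y0 y1 y2 y3 : κ → ℝ) :
    H712.lp a (Sum.elim y0 (Sum.elim y1 (Sum.elim y2 y3))) =
      a 0 • y0 + a 1 • y1 + a 2 • y2 + a 3 • y3 := by
  funext e
  simp [H712.lp]

/-- A linear position is a Gaussian vector with the variance `vr a`. -/
theorem int_lp {f : (κ → ℝ) → ℝ} (hf : EG f) (a : Fin 4 → ℝ) :
    ∫ w, f (H712.lp a w) ∂(gI (K4 κ)) = ∫ y, f (√(vr a) • y) ∂(gI κ) := by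
  have hg : EG fun w : K4 κ → ℝ => f (H712.lp a w) := eg_lp a hf
  have r : ∀ (c d : ℝ) (z : κ → ℝ), ∫ y, (∫ y', f (z + c • y + d • y') ∂(gI κ)) ∂(gI κ) =
      ∫ y, f (z + √(c ^ 2 + d ^ 2) • y) ∂(gI κ) := fun c d z =>
    gI_rot hf (by rw [Real.sq_sqrt (by positivity)]) z
  have e1 : ∀ y0 : κ → ℝ, ∫ w2 : K3 κ → ℝ, f (H712.lp a (Sum.elim y0 w2)) ∂(gI (K3 κ)) =
      ∫ y, f (a 0 • y0 + √(a 1 ^ 2 + √(a 2 ^ 2 + a 3 ^ 2) ^ 2) • y) ∂(gI κ) := by
    intro y0
    rw [int_K3 (eg_elim hg y0)]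
    rw [← r (a 1) (√(a 2 ^ 2 + a 3 ^ 2)) (a 0 • y0)]
    refine integral_congr_ae (Filter.Eventually.of_forall fun y1 => ?_)
    simp only [lp_elim]
    exact r (a 2) (a 3) (a 0 • y0 + a 1 • y1)
  rw [R1.int_sum hg]
  simp only [e1]
  have e2 := r (a 0) (√(a 1 ^ 2 + √(a 2 ^ 2 + a 3 ^ 2) ^ 2)) 0
  simp only [zero_add] at e2
  rw [e2]
  have e3 : a 0 ^ 2 + √(a 1 ^ 2 + √(a 2 ^ 2 + a 3 ^ 2) ^ 2) ^ 2 = vr a := by
    rw [Real.sq_sqrt (by positivity), Real.sq_sqrt (by positivity)]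
    unfold vr
    ring
  rw [e3]

lemma lp_sw (a : Fin 4 → ℝ) (R : Finset κ) (w g : K4 κ → ℝ) :
    H712.lp a (H712.sw (lf R) w g) = H712.sw R (H712.lp a w) (H712.lp a g) := by
  funext e
  by_cases he : e ∈ R <;> simp [H712.lp, H712.sw, lf, he]

/-- **The average over a row of a function of a linear position.** -/
theorem Av_lp {f : (κ → ℝ) → ℝ} (hf : EG f) (a : Fin 4 → ℝ) (R : Finset κ) (w : K4 κ → ℝ) :
    Av (lf R) (fun w => f (H712.lp a w)) w = AvP (vr a) R f (H712.lp a w) := by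
  unfold Av AvP
  simp only [lp_sw]
  exact int_lp (f := fun y => f (H712.sw R (H712.lp a w) y)) (H706.eg_sw hf R (H712.lp a w)) a

lemma vr_k0 (hq : q.OkS) : vr (k0 q) = q.t0 := by
  have a0 : √q.t0 ^ 2 = q.t0 := Real.sq_sqrt hq.h0
  simp only [vr, k0, H712.q0, Matrix.cons_val]
  rw [a0]
  ring

lemma vr_k1 (hq : q.OkS) : vr (k1 q) = q.t1 := by
  have a0 : √q.t0 ^ 2 = q.t0 := Real.sq_sqrt hq.h0
  have a1 : √(q.t1 - q.t0) ^ 2 = q.t1 - q.t0 := Real.sq_sqrt (sub_nonneg.2 hq.h01)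
  simp only [vr, k1, H712.q1, Matrix.cons_val]
  rw [a0, a1]
  ring

lemma vr_k2 (hq : q.OkS) : vr (k2 q) = q.s1 := by
  have a0 : √q.t0 ^ 2 = q.t0 := Real.sq_sqrt hq.h0
  have a1 : √(q.t1 - q.t0) ^ 2 = q.t1 - q.t0 := Real.sq_sqrt (sub_nonneg.2 hq.h01)
  have a2 : √(q.s1 - q.t1) ^ 2 = q.s1 - q.t1 := Real.sq_sqrt (sub_nonneg.2 hq.h1)
  simp only [vr, k2, H712.q2, Matrix.cons_val]
  rw [a0, a1, a2]
  ring

lemma okS_fst (hq : q.OkS) {s' : ℝ} (h0 : q.t1 ≤ s') (h1 : s' ≤ q.s1) : (fst q s').OkS where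
  x0 := hq.x0
  x1 := hq.x1
  θ0 := hq.θ0
  θ1 := hq.θ1
  h0 := hq.h0
  h01 := hq.h01
  h1 := h0
  h12 := h1
  h2 := hq.h12.trans hq.h2

lemma k0_fst (s' : ℝ) : k0 (fst q s') = k0 q := rfl
lemma k1_fst (s' : ℝ) : k1 (fst q s') = k1 q := rfl
lemma P0_fst (s' : ℝ) (w : K4 κ → ℝ) : P0 (fst q s') w = P0 q w := rfl
lemma P1_fst (s' : ℝ) (w : K4 κ → ℝ) : P1 (fst q s') w = P1 q w := rfl

/-- the variance of the late position -/
lemma vr_fst (hq : q.OkS) {s' : ℝ} (h0 : q.t1 ≤ s') (h1 : s' ≤ q.s1) :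
    vr (k3 (fst q s')) = vr (k2 q) := by
  rw [vr_k2 hq, H191.vr_k3 (okS_fst hq h0 h1)]
  rfl

end gen

/-! ### the numbers of one row -/

section row

variable {n : ℕ} {k x : ℝ}

/-- `C` averaged over the row `b`, without the row and the column `b`, at a position. -/
noncomputable def CbP (S : CS n k x) (s v : ℝ) (b : Fin n) (z : Pair n → ℝ) (i j : Fin n) : ℝ :=
  if i = b ∨ j = b then 0 else AvP v (row b) (fun z => S.A s z i j) z

/-- The nonlinear form of the row `b` at a position `z`. -/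
noncomputable def nlp (S : CS n k x) (s : ℝ) (b : Fin n) (Y L : Fin n → Fin n → ℝ)
    (z : Pair n → ℝ) : ℝ :=
  ∑ i, ∑ l, Y i l * ((Uz S s b i z - k * ∑ e ∈ row b, L i (oth b e) * z e) *
    (Uz S s b l z - k * ∑ e ∈ row b, L l (oth b e) * z e))

variable {S : CS n k x} {s : ℝ} {a : Fin 4 → ℝ} {b : Fin n}

lemma nl_eq (Y L : MF n) (w : K4 (Pair n) → ℝ) :
    nl k S s a b Y L w = nlp S s b (Y w) (L w) (H712.lp a w) := rfl

lemma Cb_lp (w : K4 (Pair n) → ℝ) (i j : Fin n) :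
    H364.Cb S s a b w i j = CbP S s (vr a) b (H712.lp a w) i j := by
  unfold H364.Cb CbP
  by_cases h : i = b ∨ j = b
  · rw [if_pos h, if_pos h]
  · rw [if_neg h, if_neg h]
    exact Av_lp (S.eg_A s i j) a (row b) w

lemma eg_CbP (v : ℝ) (i j : Fin n) : EG fun z => CbP S s v b z i j := by
  unfold CbP
  by_cases h : i = b ∨ j = b
  · simp only [if_pos h]
    exact EG.const 0
  · simp only [if_neg h]
    exact eg_AvP (S.eg_A s i j) v (row b)

lemma e3_nlp {Y L : (Pair n → ℝ) → Fin n → Fin n → ℝ} (hY : ∀ i l, EG fun z => Y z i l)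
    (hL : ∀ i l, EG fun z => L z i l) : E3 fun z0 _ z2 => nlp S s b (Y z0) (L z2) z2 := by
  unfold nlp
  have eN : ∀ i, EG fun z : Pair n → ℝ =>
      Uz S s b i z - k * ∑ e ∈ row b, L z i (oth b e) * z e := fun i =>
    (eg_Uz S s b i).sub ((EG.sum _ fun e _ => (hL _ _).mul (EG.coord e)).const_mul _)
  exact EG.sum _ fun i _ => EG.sum _ fun l _ => (E3.of0 (hY i l)).mul
    ((E3.of2 (eN i)).mul (E3.of2 (eN l)))

variable {q : Par} {G : GD (Pair n)}

/-- **The nonlinear number of one row at the first time**: weight a function of the deep position,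
response a function of the late position. -/
theorem nl_law {S : CS n k q.x} (hq : q.OkS) (hG : G.Ok) {s' : ℝ}
    (h0 : q.t1 ≤ s') (h1 : s' ≤ q.s1) {Y L : (Pair n → ℝ) → Fin n → Fin n → ℝ}
    (hY : ∀ i l, EG fun z => Y z i l) (hL : ∀ i l, EG fun z => L z i l) :
    EwG q G S.F (nl k S s (k2 q) b (fun w => Y (P0 q w)) (fun w => L (H712.lp (k2 q) w))) =
      EwG (fst q s') G S.F (nl k S s (k3 (fst q s')) b (fun w => Y (P0 (fst q s') w))
        (fun w => L (H712.lp (k3 (fst q s')) w))) := by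
  have key := EwG_fst (q := q) (G := G) S.c11 S.x0 hG
    (Ψ := fun z0 _ z2 => nlp S s b (Y z0) (L z2) z2) (e3_nlp hY hL) h0 h1 hq.h12 hq.h2
  have e1 : nl k S s (k2 q) b (fun w => Y (P0 q w)) (fun w => L (H712.lp (k2 q) w)) =
      fun w => nlp S s b (Y (P0 q w)) (L (P2 q w)) (P2 q w) := by
    funext w
    rw [nl_eq, P2_lp]
  have e2 : nl k S s (k3 (fst q s')) b (fun w => Y (P0 (fst q s') w))
        (fun w => L (H712.lp (k3 (fst q s')) w)) =
      fun w => nlp S s b (Y (P0 (fst q s') w)) (L (P3 (fst q s') w)) (P3 (fst q s') w) := by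
    funext w
    rw [nl_eq, P3_lp]
  rw [e1, e2]
  exact key

/-- **The nonlinear number of one row at the first time**, with the response `L_b = C_b / β`
(`C_b` averaged over the row). -/
theorem nl_fst {S : CS n k q.x} (hq : q.OkS) (hG : G.Ok) {s' : ℝ} (h0 : q.t1 ≤ s')
    (h1 : s' ≤ q.s1) {Y : (Pair n → ℝ) → Fin n → Fin n → ℝ} (hY : ∀ i l, EG fun z => Y z i l)
    (β : ℝ) (b : Fin n) :
    EwG q G S.F (nl k S s (k2 q) b (fun w => Y (P0 q w))
        (fun w i l => H364.Cb S s (k2 q) b w i l / β)) =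
      EwG (fst q s') G S.F (nl k S s (k3 (fst q s')) b (fun w => Y (P0 (fst q s') w))
        (fun w i l => H364.Cb S s (k3 (fst q s')) b w i l / β)) := by
  have key := nl_law (S := S) (s := s) (b := b) hq hG h0 h1 hY
    (L := fun z i l => CbP S s q.s1 b z i l / β) fun i l => by
      simpa only [div_eq_inv_mul] using (eg_CbP (S := S) (s := s) (b := b) q.s1 i l).const_mul β⁻¹
  have e1 : (fun w i l => H364.Cb S s (k2 q) b w i l / β) =
      fun (w : K4 (Pair n) → ℝ) i l => CbP S s q.s1 b (H712.lp (k2 q) w) i l / β := by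
    funext w i l
    rw [Cb_lp, vr_k2 hq]
  have e2 : (fun w i l => H364.Cb S s (k3 (fst q s')) b w i l / β) =
      fun (w : K4 (Pair n) → ℝ) i l => CbP S s q.s1 b (H712.lp (k3 (fst q s')) w) i l / β := by
    funext w i l
    rw [Cb_lp, vr_fst hq h0 h1, vr_k2 hq]
  rw [e1, e2]
  exact key

/-- The row average of a matrix of functions of the deep position. -/
lemma Av_P0 (hq : q.OkS) {f : (Pair n → ℝ) → ℝ} (hf : EG f) (b : Fin n)
    (w : K4 (Pair n) → ℝ) :
    Av (lf (row b)) (fun w => f (P0 q w)) w = AvP q.t0 (row b) f (P0 q w) := by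
  have e : (fun w : K4 (Pair n) → ℝ => f (P0 q w)) = fun w => f (H712.lp (k0 q) w) := by
    funext w
    rw [P0_lp]
  rw [e, Av_lp hf, vr_k0 hq, P0_lp]

/-- **The sum over the rows**, frozen weight `Y_b` = average of `Y` over the row, frozen response
`C_b / β`. -/
theorem sum_nl_fst {S : CS n k q.x} (hq : q.OkS) (hG : G.Ok) {s' : ℝ} (h0 : q.t1 ≤ s')
    (h1 : s' ≤ q.s1) {Y : (Pair n → ℝ) → Fin n → Fin n → ℝ} (hY : ∀ i l, EG fun z => Y z i l)
    (β : ℝ) :
    ∑ b, Im (densG q G S.F) (nl k S s (k2 q) b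
        (fun w i l => Av (lf (row b)) (fun w => Y (P0 q w) i l) w)
        (fun w i l => H364.Cb S s (k2 q) b w i l / β)) =
      ∑ b, Im (densG (fst q s') G S.F) (nl k S s (k3 (fst q s')) b
        (fun w i l => Av (lf (row b)) (fun w => Y (P0 (fst q s') w) i l) w)
        (fun w i l => H364.Cb S s (k3 (fst q s')) b w i l / β)) := by
  refine Finset.sum_congr rfl fun b _ => ?_
  have e1 : (fun w i l => Av (lf (row b)) (fun w => Y (P0 q w) i l) w) =
      fun (w : K4 (Pair n) → ℝ) i l => AvP q.t0 (row b) (fun z => Y z i l) (P0 q w) := by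
    funext w i l
    exact Av_P0 hq (hY i l) b w
  have e2 : (fun w i l => Av (lf (row b)) (fun w => Y (P0 (fst q s') w) i l) w) =
      fun (w : K4 (Pair n) → ℝ) i l =>
        AvP q.t0 (row b) (fun z => Y z i l) (P0 (fst q s') w) := by
    funext w i l
    exact Av_P0 (okS_fst hq h0 h1) (hY i l) b w
  rw [e1, e2]
  exact nl_fst (S := S) (s := s) hq hG h0 h1
    (Y := fun z i l => AvP q.t0 (row b) (fun z => Y z i l) z)
    (fun i l => eg_AvP (hY i l) q.t0 (row b)) β b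

end row

end Vale.Agent.P146.H420
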