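import Vale.Agent.P146.H425.X1

/-!
The relative inequality between two systems above a level `J` (the conditional form of
`H425.T_exp_le`), the gain as a conditional variance, and the split of the variance at the
level `J`.
-/

open MeasureTheory ProbabilityTheory

namespace Vale.Agent.P146.H420

open Vale.Agent.P157 Vale.Agent.P157.Lv Vale.Agent.P157.Lv.Sy
open Vale.Agent.P146.H784 (vr)
open Vale.Agent.P146.H425

set_option linter.unusedSectionVars false
set_option linter.unusedVariables false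

variable {ι X : Type} [Fintype ι] [Fintype X] [Nonempty X]

variable {S : Sy ι X} {m' : ℕ → ℝ} {J l0 : ℕ} {r : ℝ}

lemma lip_dlg (hS : S.Reg) (hS' : (wm S m').Reg) {j : ℕ} (hj : j ≤ S.K) :
    Lip fun z => (wm S m').lg j z - S.lg j z := by
  have h1 := (hS'.lip_lg hj).add ((hS.lip_lg hj).const_mul (-1))
  have e : (fun z => (wm S m').lg j z - S.lg j z) =
      fun z => (wm S m').lg j z + -1 * S.lg j z := by
    funext z; ring
  rw [e]
  exact h1

lemma dep_dlg (hS : S.Reg) (hS' : (wm S m').Reg) {j : ℕ} (hj : j ≤ S.K) :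
    Dep S.lev j fun z => (wm S m').lg j z - S.lg j z := by
  intro z w
  have h1 := hS'.dep_lg hj z w
  have h2 := hS.dep_lg hj z w
  rw [wm_lev] at h1
  simp only [h1, h2]

/-- **The relative inequality for the log-weights above the level `J`.** -/
theorem T_exp_le_J (hS : S.Reg) (hS' : (wm S m').Reg) (hl0 : l0 ≤ S.K) (hJ : J ≤ l0)
    (hr : 0 < r) (heq : ∀ j, J < j → j ≤ l0 → m' j = S.m j)
    (hrm : ∀ j, J < j → j ≤ l0 → r ≤ S.m j) (z : ι → ℝ) :
    S.T J (fun z _ => Real.exp (r * ((wm S m').lg l0 z - S.lg l0 z))) z ≤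
      Real.exp (r * ((wm S m').lg J z - S.lg J z)) := by
  have hE : ∀ j ≤ S.K, ∀ x : ℝ, EG fun z => Real.exp (x * ((wm S m').lg j z - S.lg j z)) :=
    fun j hj x => (lip_dlg hS hS' hj).exp_eg x
  have main : ∀ l ≤ l0, J ≤ l → ∀ z, S.T l (fun z _ =>
      Real.exp (r * ((wm S m').lg l0 z - S.lg l0 z))) z ≤
      Real.exp (r * ((wm S m').lg l z - S.lg l z)) := by
    refine down_ind (P := fun l => J ≤ l → ∀ z, S.T l (fun z _ =>
      Real.exp (r * ((wm S m').lg l0 z - S.lg l0 z))) z ≤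
        Real.exp (r * ((wm S m').lg l z - S.lg l z))) ?_ ?_
    · intro _ z
      refine le_of_eq (hS.T_fst hl0
        (φ := fun z => Real.exp (r * ((wm S m').lg l0 z - S.lg l0 z))) ?_ z)
      intro z w
      have := dep_dlg hS hS' hl0 z w
      simp only at this
      simp only [this]
    · intro l hl ih hJl z
      have ih := ih (by omega)
      have hlK : l < S.K := by omega
      have hm1 : r ≤ S.m (l + 1) := hrm _ (by omega) (by omega)
      have hm0 : 0 < S.m (l + 1) := hr.trans_le hm1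
      have em : m' (l + 1) = S.m (l + 1) := heq _ (by omega) (by omega)
      obtain ⟨t, ht⟩ : ∃ t, t = (wm S m').lg l z - S.lg l z := ⟨_, rfl⟩
      have h1 : Lv.J S.lev l (fun z => S.pW l z *
          Real.exp (S.m (l + 1) * ((wm S m').lg (l + 1) z - S.lg (l + 1) z))) z =
          Real.exp (S.m (l + 1) * t) := by
        have h2 := hS'.J_exp_lg (l := l) hlK z
        rw [wm_lev, wm_m, em] at h2
        have h3 : Dep S.lev l (fun z => Real.exp (-(S.m (l + 1) * S.lg l z))) := by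
          intro z w
          simp only [hS.dep_lg hlK.le z w]
        have h4 := h3.J_mul (fun z => Real.exp (S.m (l + 1) * (wm S m').lg (l + 1) z)) z
        have h5 : (fun z => S.pW l z *
            Real.exp (S.m (l + 1) * ((wm S m').lg (l + 1) z - S.lg (l + 1) z))) =
            fun z => Real.exp (-(S.m (l + 1) * S.lg l z)) *
              Real.exp (S.m (l + 1) * (wm S m').lg (l + 1) z) := by
          funext y
          unfold pW
          rw [← Real.exp_add, ← Real.exp_add]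
          congr 1
          ring
        rw [h5, h4, h2, ← Real.exp_add, ht]
        congr 1
        ring
      have hn : Nh (X := X) fun z _ => Real.exp (r * ((wm S m').lg l0 z - S.lg l0 z)) :=
        Nh.fst (hE l0 hl0 r)
      rw [hS.T_step hlK hn z, ← ht]
      have i0 : EG fun z => S.pW l z * S.T (l + 1) (fun z _ =>
          Real.exp (r * ((wm S m').lg l0 z - S.lg l0 z))) z :=
        (hS.pW_eg hlK).mul (hS.eg_T hlK hn)
      have i1 := (hS.pW_eg hlK).mul (hE (l + 1) hlK (S.m (l + 1)))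
      have i2 : EG fun z => Real.exp (r * t) * (1 - r / S.m (l + 1)) * S.pW l z +
          Real.exp (r * t) * (r / S.m (l + 1)) * Real.exp (-(S.m (l + 1) * t)) * (S.pW l z *
            Real.exp (S.m (l + 1) * ((wm S m').lg (l + 1) z - S.lg (l + 1) z))) :=
        ((hS.pW_eg hlK).const_mul _).add (i1.const_mul _)
      refine (J_mono i0 i2 (fun y => ?_) z).trans (le_of_eq ?_)
      · have h6 := ih y
        have h7 := exp_pow_aux (t := t) (g := (wm S m').lg (l + 1) y - S.lg (l + 1) y) hr hm1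
        have h8 := mul_le_mul_of_nonneg_left (h6.trans h7) (S.pW_pos l y).le
        refine h8.trans (le_of_eq ?_)
        have h9 : Real.exp (S.m (l + 1) * ((wm S m').lg (l + 1) y - S.lg (l + 1) y - t)) =
            Real.exp (-(S.m (l + 1) * t)) *
              Real.exp (S.m (l + 1) * ((wm S m').lg (l + 1) y - S.lg (l + 1) y)) := by
          rw [← Real.exp_add]; congr 1; ring
        rw [h9]
        ring
      · rw [J_add ((hS.pW_eg hlK).const_mul _) (i1.const_mul _), J_const_mul, J_const_mul,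
          hS.J_pW hlK, h1, mul_assoc (Real.exp (r * t) * (r / S.m (l + 1))), ← Real.exp_add,
          neg_add_cancel, Real.exp_zero]
        ring
  exact main J hJ le_rfl z

/-- Bounds of a conditional average. -/
lemma T_bd (hS : S.Reg) (hJ : J ≤ S.K) {k : (ι → ℝ) → ℝ} (hk : EG k) {b : ℝ}
    (hk0 : ∀ z, 0 ≤ k z) (hkb : ∀ z, k z ≤ b) (z : ι → ℝ) :
    0 ≤ S.T J (fun z _ => k z) z ∧ S.T J (fun z _ => k z) z ≤ b := by
  constructor
  · rw [← hS.T_const hJ 0 z]
    exact hS.T_mono hJ (fun _ => EG.const 0) (Nh.fst hk) (fun z _ => hk0 z) z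
  · rw [← hS.T_const hJ b z]
    exact hS.T_mono hJ (Nh.fst hk) (fun _ => EG.const b) (fun z _ => hkb z) z

lemma eg_TJ (hS : S.Reg) (hJ : J ≤ S.K) {k : (ι → ℝ) → ℝ} (hk : EG k) :
    EG (S.T J (fun z _ => k z)) := hS.eg_T hJ (Nh.fst hk)

/-- **The conditional gain over the slope is at least a conditional variance.** -/
theorem cond_gain (hS : S.Reg) (hS' : (wm S m').Reg) (hl0 : l0 ≤ S.K) (hJ : J ≤ l0)
    (hr : 0 < r) (heq : ∀ j, J < j → j ≤ l0 → m' j = S.m j)
    (hrm : ∀ j, J < j → j ≤ l0 → r ≤ S.m j)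
    {k : (ι → ℝ) → ℝ} (hk : EG k) {h b : ℝ} (hk0 : ∀ z, 0 ≤ k z) (hkb : ∀ z, k z ≤ b)
    (hb : r * |h| * b ≤ 1 / 2) (hle : ∀ z, h * k z ≤ (wm S m').lg l0 z - S.lg l0 z)
    (z : ι → ℝ) :
    h * S.T J (fun z _ => k z) z +
      1 / 4 * r * h ^ 2 * S.T J (fun z' _ => (k z' - S.T J (fun z _ => k z) z') ^ 2) z ≤
      (wm S m').lg J z - S.lg J z := by
  have hJK : J ≤ S.K := hJ.trans hl0
  have h1 := T_exp_le_J hS hS' hl0 hJ hr heq hrm z
  obtain ⟨κ, hκ⟩ : ∃ κ : (ι → ℝ) → ℝ, κ = S.T J (fun z _ => k z) := ⟨_, rfl⟩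
  have eκ : EG κ := by rw [hκ]; exact eg_TJ hS hJK hk
  have dκ : Dep S.lev J κ := by rw [hκ]; exact S.dep_T J _
  have bκ : ∀ y, 0 ≤ κ y ∧ κ y ≤ b := fun y => by rw [hκ]; exact T_bd hS hJK hk hk0 hkb y
  have hrh : 0 ≤ r * |h| := by positivity
  have hy : ∀ y, |r * h * (k y - κ y)| ≤ 1 / 2 := by
    intro y
    rw [abs_mul, abs_mul, abs_of_pos hr]
    refine le_trans (mul_le_mul_of_nonneg_left ?_ hrh) hb
    rw [abs_le]
    constructor <;> linarith [hk0 y, hkb y, (bκ y).1, (bκ y).2]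
  have hL := lip_dlg hS hS' hl0
  have n1 : Nh (X := X) fun z _ => (k z - κ z) := Nh.fst (hk.sub eκ)
  have n2 : Nh (X := X) fun z _ => (k z - κ z) ^ 2 := Nh.fst ((hk.sub eκ).pow 2)
  have eE : EG fun y => Real.exp (r * h * κ y) := by
    refine EG.of_bdd ((eκ.meas.const_mul _).exp) (C := Real.exp (r * |h| * b)) fun y => ?_
    rw [abs_of_pos (Real.exp_pos _)]
    refine Real.exp_le_exp.2 ?_
    have h3 : r * h * κ y ≤ r * |h| * κ y := by
      have := le_abs_self h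
      have h4 := (bκ y).1
      gcongr
    exact h3.trans (mul_le_mul_of_nonneg_left (bκ y).2 hrh)
  have dE : Dep S.lev J fun y => Real.exp (r * h * κ y) := by
    intro y w
    simp only [dκ y w]
  have n3 : Nh (X := X) fun z _ => (1 + (r * h * (k z - κ z) +
      r ^ 2 * h ^ 2 / 3 * (k z - κ z) ^ 2)) :=
    Nh.add (fun _ => EG.const 1) (Nh.add (Nh.const_mul _ n1) (Nh.const_mul _ n2))
  have h2 := hS.T_mono hJK (f := fun z _ => Real.exp (r * h * κ z) * (1 + (r * h * (k z - κ z) +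
      r ^ 2 * h ^ 2 / 3 * (k z - κ z) ^ 2)))
    (g := fun z _ => Real.exp (r * ((wm S m').lg l0 z - S.lg l0 z)))
    (fun x => eE.mul (n3 x)) (Nh.fst (hL.exp_eg r)) (fun y _ => by
      have h3 := exp_ge_quad (hy y)
      have h4 : Real.exp (r * (h * k y)) =
          Real.exp (r * h * κ y) * Real.exp (r * h * (k y - κ y)) := by
        rw [← Real.exp_add]; congr 1; ring
      have h5 := Real.exp_le_exp.2 (mul_le_mul_of_nonneg_left (hle y) hr.le)
      refine le_trans ?_ h5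
      rw [h4]
      refine mul_le_mul_of_nonneg_left (le_trans (le_of_eq ?_) h3) (Real.exp_pos _).le
      ring) z
  obtain ⟨V, hV⟩ : ∃ V, V = S.T J (fun z _ => (k z - κ z) ^ 2) z := ⟨_, rfl⟩
  have e1 : S.T J (fun z _ => Real.exp (r * h * κ z) * (1 + (r * h * (k z - κ z) +
      r ^ 2 * h ^ 2 / 3 * (k z - κ z) ^ 2))) z =
      Real.exp (r * h * κ z) * (1 + r ^ 2 * h ^ 2 * V / 3) := by
    rw [T_mul_left S dE (fun z _ => (1 + (r * h * (k z - κ z) +
      r ^ 2 * h ^ 2 / 3 * (k z - κ z) ^ 2))) z, hS.T_add hJK (fun _ => EG.const 1)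
      (Nh.add (Nh.const_mul _ n1) (Nh.const_mul _ n2)), hS.T_const hJK,
      hS.T_add hJK (Nh.const_mul _ n1) (Nh.const_mul _ n2),
      T_const_mul, T_const_mul, hS.T_sub hJK (Nh.fst hk) (Nh.fst eκ), hS.T_fst hJK dκ, ← hV]
    have e2 : S.T J (fun z _ => k z) z = κ z := by rw [hκ]
    rw [e2]
    ring
  rw [e1] at h2
  have hV0 : 0 ≤ V := by
    rw [hV, ← hS.T_const hJK 0 z]
    exact hS.T_mono hJK (fun _ => EG.const 0) n2 (fun y _ => sq_nonneg _) z
  have hv1 : r ^ 2 * h ^ 2 * V ≤ 1 := by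
    have h3 : r ^ 2 * h ^ 2 * V = S.T J (fun z _ => r ^ 2 * h ^ 2 * (k z - κ z) ^ 2) z := by
      rw [T_const_mul, hV]
    rw [h3, ← hS.T_const hJK 1 z]
    refine hS.T_mono hJK (Nh.const_mul _ n2) (fun _ => EG.const 1) (fun y _ => ?_) z
    have h4 : r ^ 2 * h ^ 2 * (k y - κ y) ^ 2 = |r * h * (k y - κ y)| ^ 2 := by
      rw [sq_abs]; ring
    rw [h4]
    have h5 := pow_le_pow_left₀ (abs_nonneg _) (hy y) 2
    linarith
  have h3 := h2.trans h1
  have h4 : 0 < 1 + r ^ 2 * h ^ 2 * V / 3 := by positivity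
  have h5 := Real.log_le_log (mul_pos (Real.exp_pos _) h4) h3
  rw [Real.log_mul (Real.exp_pos _).ne' h4.ne', Real.log_exp, Real.log_exp] at h5
  have h6 := log_ge_quarter (v := r ^ 2 * h ^ 2 * V) (by positivity) hv1
  have h7 : r * (h * κ z + 1 / 4 * r * h ^ 2 * V) ≤ r * ((wm S m').lg J z - S.lg J z) := by
    nlinarith [h5, h6]
  have h8 := le_of_mul_le_mul_left h7 hr
  rw [hV, hκ] at h8
  exact h8

/-- **The gain is at least the part of the variance above the level `J`.** -/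
theorem gain_J (hS : S.Reg) (hS' : (wm S m').Reg) (hl0 : l0 ≤ S.K) (hJ : J ≤ l0)
    {r0 : ℝ} (hr0 : 0 < r0) (hr : 0 < r) (heq : ∀ j, 1 ≤ j → j ≤ l0 → m' j = S.m j)
    (hrm0 : ∀ j, 1 ≤ j → j ≤ J → r0 ≤ S.m j) (hrm : ∀ j, J < j → j ≤ l0 → r ≤ S.m j)
    (hc : ∀ z, S.lg 0 z = S.fe) (hc' : ∀ z, (wm S m').lg 0 z = (wm S m').fe)
    {k : (ι → ℝ) → ℝ} (hk : EG k) {h b : ℝ} (hk0 : ∀ z, 0 ≤ k z) (hkb : ∀ z, k z ≤ b)
    (hb : r * |h| * b ≤ 1 / 2) (hle : ∀ z, h * k z ≤ (wm S m').lg l0 z - S.lg l0 z) :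
    h * S.Ex (fun z _ => k z) +
      1 / 4 * r * h ^ 2 * S.Ex (fun z _ => (k z - S.T J (fun z _ => k z) z) ^ 2) ≤
      (wm S m').fe - S.fe := by
  have hJK : J ≤ S.K := hJ.trans hl0
  have e1 : EG (S.T J (fun z _ => k z)) := eg_TJ hS hJK hk
  have e2 : EG fun z => (k z - S.T J (fun z _ => k z) z) ^ 2 := (hk.sub e1).pow 2
  have e3 : EG (S.T J (fun z' _ => (k z' - S.T J (fun z _ => k z) z') ^ 2)) :=
    eg_TJ hS hJK e2
  have h1 := fe_sub_ge hS hS' hJK hr0 (fun j h1 h2 => heq j h1 (h2.trans hJ)) hrm0 hc hc'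
    (g := fun z => h * S.T J (fun z _ => k z) z +
      1 / 4 * r * h ^ 2 * S.T J (fun z' _ => (k z' - S.T J (fun z _ => k z) z') ^ 2) z)
    ((e1.const_mul _).add (e3.const_mul _))
    (fun z => cond_gain hS hS' hl0 hJ hr (fun j h1 h2 => heq j (by omega) h2) hrm hk hk0 hkb
      hb hle z)
  rw [hS.Ex_add (Nh.fst (e1.const_mul _)) (Nh.fst (e3.const_mul _)), Ex_const_mul,
    Ex_const_mul, hS.Ex_T hJK (Nh.fst hk), hS.Ex_T hJK (Nh.fst e2)] at h1
  exact h1

/-- The variance splits at the level `J`. -/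
theorem vr_split (hS : S.Reg) (hJ : J ≤ S.K) {k : (ι → ℝ) → ℝ} (hk : EG k) :
    vr S (fun z _ => k z) = S.Ex (fun z _ => (k z - S.T J (fun z _ => k z) z) ^ 2) +
      vr S (fun z _ => S.T J (fun z _ => k z) z) := by
  obtain ⟨κ, hκ⟩ : ∃ κ : (ι → ℝ) → ℝ, κ = S.T J (fun z _ => k z) := ⟨_, rfl⟩
  have eκ : EG κ := by rw [hκ]; exact eg_TJ hS hJ hk
  have dκ : Dep S.lev J κ := by rw [hκ]; exact S.dep_T J _
  obtain ⟨c, hc⟩ : ∃ c, c = S.Ex (fun z _ => k z) := ⟨_, rfl⟩
  have hc2 : S.Ex (fun z _ => κ z) = c := by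
    rw [hκ, hc]
    exact hS.Ex_T hJ (Nh.fst hk)
  have h1 : S.Ex (fun z _ => (κ z - c) * (k z - κ z)) = 0 := by
    have h2 := hS.Ex_mul_T hJ (φ := fun z => κ z - c) (by
      intro z w
      simp only [dκ z w]) (eκ.sub (EG.const c)) (f := fun z _ => k z - κ z)
      (Nh.fst (hk.sub eκ))
    rw [← h2]
    have h3 : ∀ z, S.T J (fun z _ => k z - κ z) z = 0 := by
      intro z
      rw [hS.T_sub hJ (Nh.fst hk) (Nh.fst eκ), hS.T_fst hJ dκ, hκ, sub_self]
    simp only [h3, mul_zero]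
    exact hS.Ex_const 0
  unfold vr
  rw [← hκ, hc2, ← hc]
  have h4 : (fun (z : ι → ℝ) (_ : X) => (k z - c) ^ 2) = fun z _ =>
      ((k z - κ z) ^ 2 + (κ z - c) ^ 2) + 2 * ((κ z - c) * (k z - κ z)) := by
    funext z _
    ring
  rw [h4, hS.Ex_add (Nh.fst ((((hk.sub eκ).pow 2)).add ((eκ.sub (EG.const c)).pow 2)))
    (Nh.fst (((eκ.sub (EG.const c)).mul (hk.sub eκ)).const_mul 2)), Ex_const_mul, h1,
    hS.Ex_add (Nh.fst ((hk.sub eκ).pow 2)) (Nh.fst ((eκ.sub (EG.const c)).pow 2))]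
  ring

end Vale.Agent.P146.H420
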